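import Vale.Agent.P097.H350.Leaf2
import Vale.Agent.P281.MF.Hol

/-!
# P097 / (A5), helper624 (9): the LEAF LEMMA
-/

set_option linter.all false

open Complex Metric Set Filter Topology
open scoped Real ComplexConjugate

namespace Vale.Agent.P097.H350

/-- An injective holomorphic function has nonvanishing derivative. -/
theorem injOn_deriv_ne_zero {f : ℂ → ℂ} {U : Set ℂ} (hU : IsOpen U) (hf1 : DifferentiableOn ℂ f U)
    (hf2 : InjOn f U) {z₀ : ℂ} (hz : z₀ ∈ U) : deriv f z₀ ≠ 0 := by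
  intro hd
  have hnhds : U ∈ 𝓝 z₀ := hU.mem_nhds hz
  have hfa : AnalyticAt ℂ f z₀ := hf1.analyticAt hnhds
  have hφ : AnalyticAt ℂ (fun z => f z - f z₀) z₀ := hfa.sub analyticAt_const
  have hnz : ¬ ∀ᶠ z in 𝓝 z₀, f z - f z₀ = 0 := by
    intro h
    have h2 : ∀ᶠ z in 𝓝[≠] z₀, f z - f z₀ = 0 ∧ z ∈ U :=
      (h.and hnhds).filter_mono nhdsWithin_le_nhds
    obtain ⟨z, ⟨h3, h4⟩, h5⟩ := (h2.and self_mem_nhdsWithin).exists
    exact h5 (hf2 h4 hz (sub_eq_zero.mp h3))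
  obtain ⟨n, g, hg, hg0, hgn⟩ := (hφ.exists_eventuallyEq_pow_smul_nonzero_iff).mpr hnz
  have hn0 : n ≠ 0 := by
    rintro rfl
    have := hgn.self_of_nhds
    simp at this
    exact hg0 this.symm
  have hn1 : n ≠ 1 := by
    rintro rfl
    have h1 : HasDerivAt (fun z => (z - z₀) ^ 1 • g z) (g z₀) z₀ := by
      have := ((hasDerivAt_id z₀).sub_const z₀).fun_mul hg.differentiableAt.hasDerivAt
      simpa using this
    have h2 : HasDerivAt (fun z => f z - f z₀) (g z₀) z₀ := h1.congr_of_eventuallyEq hgn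
    have h3 : HasDerivAt (fun z => f z - f z₀) (deriv f z₀) z₀ :=
      (hfa.differentiableAt.hasDerivAt).sub_const _
    exact hg0 ((h2.unique h3).trans hd)
  obtain ⟨c, hc⟩ := IsAlgClosed.exists_pow_nat_eq (g z₀) (Nat.pos_of_ne_zero hn0)
  have hc0 : c ≠ 0 := by
    rintro rfl
    rw [zero_pow hn0] at hc
    exact hg0 hc.symm
  set k : ℂ → ℂ := fun z => cexp (Complex.log (g z / g z₀) / n) with hk
  have hnC : (n : ℂ) ≠ 0 := by exact_mod_cast hn0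
  have hkn : ∀ᶠ z in 𝓝 z₀, k z ^ n = g z / g z₀ := by
    have : ∀ᶠ z in 𝓝 z₀, g z ≠ 0 := hg.continuousAt.eventually_ne hg0
    filter_upwards [this] with z hz
    rw [hk]
    simp only
    rw [← Complex.exp_nat_mul, mul_div_cancel₀ _ hnC, Complex.exp_log (div_ne_zero hz hg0)]
  have hk0 : k z₀ = 1 := by simp [hk, div_self hg0]
  have hkd : AnalyticAt ℂ k z₀ := by
    have h1 : AnalyticAt ℂ (fun z => g z / g z₀) z₀ := hg.div analyticAt_const hg0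
    have h2 : AnalyticAt ℂ (fun z => Complex.log (g z / g z₀)) z₀ := by
      apply h1.clog
      rw [div_self hg0]
      exact Complex.one_mem_slitPlane
    exact (h2.div analyticAt_const hnC).cexp
  set h : ℂ → ℂ := fun z => (z - z₀) * (c * k z) with hh
  have hha : AnalyticAt ℂ h z₀ := by
    exact (analyticAt_id.sub analyticAt_const).mul (analyticAt_const.mul hkd)
  have hhd : HasDerivAt h c z₀ := by
    have := ((hasDerivAt_id z₀).sub_const z₀).mul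
      ((hasDerivAt_const z₀ c).mul hkd.differentiableAt.hasDerivAt)
    refine this.congr_deriv ?_
    simp [hk0]
  have hhs : HasStrictDerivAt h c z₀ := by
    have := hha.hasStrictDerivAt
    rwa [hhd.deriv] at this
  have hmap : map h (𝓝 z₀) = 𝓝 (h z₀) := hhs.map_nhds_eq hc0
  have hh0 : h z₀ = 0 := by simp [hh]
  have hpow : ∀ᶠ z in 𝓝 z₀, f z - f z₀ = h z ^ n := by
    filter_upwards [hgn, hkn] with z h1 h2
    rw [h1, hh]
    simp only
    rw [mul_pow, mul_pow, h2, hc, smul_eq_mul]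
    field_simp
  have hV : {z | f z - f z₀ = h z ^ n ∧ z ∈ U} ∈ 𝓝 z₀ := hpow.and hnhds
  have himg : h '' {z | f z - f z₀ = h z ^ n ∧ z ∈ U} ∈ 𝓝 (0 : ℂ) := by
    have h1 := image_mem_map (m := h) hV
    rwa [hmap, hh0] at h1
  obtain ⟨ε, hε, hball⟩ := Metric.mem_nhds_iff.mp himg
  have hprim := Complex.isPrimitiveRoot_exp n hn0
  set ω := cexp (2 * π * I / n) with hω
  have hω1 : ω ≠ 1 := hprim.ne_one (by omega)
  have hωn : ω ^ n = 1 := hprim.pow_eq_one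
  have hωnorm : ‖ω‖ = 1 := Complex.norm_eq_one_of_pow_eq_one hωn hn0
  set w : ℂ := ((ε / 2 : ℝ) : ℂ) with hw
  have hwn : ‖w‖ = ε / 2 := by
    rw [hw, Complex.norm_real, Real.norm_eq_abs, abs_of_pos (by positivity)]
  have hw1 : w ∈ ball (0 : ℂ) ε := by rw [mem_ball_zero_iff, hwn]; linarith
  have hw2 : ω * w ∈ ball (0 : ℂ) ε := by
    rw [mem_ball_zero_iff, norm_mul, hωnorm, one_mul, hwn]; linarith
  obtain ⟨z1, ⟨h11, h12⟩, h13⟩ := hball hw1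
  obtain ⟨z2, ⟨h21, h22⟩, h23⟩ := hball hw2
  have heq : f z1 = f z2 := by
    have : f z1 - f z₀ = f z2 - f z₀ := by
      rw [h11, h21, h13, h23, mul_pow, hωn, one_mul]
    exact sub_left_injective this
  have hz12 := hf2 h12 h22 heq
  rw [hz12, h23] at h13
  have hw0 : w ≠ 0 := by
    intro h0
    rw [h0, norm_zero] at hwn
    linarith
  exact hω1 (mul_right_cancel₀ hw0 (by rw [h13, one_mul]))



/-- the square root on the right half plane -/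
lemma sq_re {w : ℂ} (hw : 0 < w.re) : 0 < (w ^ (1 / 2 : ℂ)).re ∧
    ‖w‖ ≤ 2 * (w ^ (1 / 2 : ℂ)).re ^ 2 ∧ (w ^ (1 / 2 : ℂ)).re ^ 2 ≤ ‖w‖ := by
  have hw0 : w ≠ 0 := by rintro rfl; simp at hw
  set h : ℂ := w ^ (1 / 2 : ℂ) with hh
  have hsq : h ^ 2 = w := by
    rw [hh, ← Complex.cpow_nat_mul]
    norm_num
  have h1 : 0 ≤ h.re := by
    rw [hh, Complex.cpow_def_of_ne_zero hw0, Complex.exp_re]
    refine mul_nonneg (Real.exp_pos _).le (Real.cos_nonneg_of_mem_Icc ?_)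
    have h2 : (Complex.log w * (1 / 2)).im = w.arg / 2 := by
      have : Complex.log w * (1 / 2) = ((1 / 2 : ℝ) : ℂ) * Complex.log w := by
        push_cast; ring
      rw [this, Complex.im_ofReal_mul, Complex.log_im]; ring
    rw [h2]
    have h3 := Complex.abs_arg_le_pi w
    rw [abs_le] at h3
    constructor <;> linarith [Real.pi_pos]
  have hre : h.re ^ 2 - h.im ^ 2 = w.re := by
    rw [← hsq]; simp [pow_two]
  have hn : h.re ^ 2 + h.im ^ 2 = ‖w‖ := by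
    rw [← hsq, norm_pow, ← Complex.normSq_eq_norm_sq, Complex.normSq_apply]; ring
  refine ⟨lt_of_le_of_ne h1 ?_, by nlinarith, by nlinarith [sq_nonneg h.im]⟩
  intro h0
  rw [← h0] at hre
  nlinarith [sq_nonneg h.im]

/-- local solution of `m (x, κ) = 0` -/
lemma loc {m : ℂ × ℂ → ℂ} {u : ℂ × ℂ} (hm : AnalyticAt ℂ m u) (h0 : m u = 0)
    (hd : deriv (fun κ => m (u.1, κ)) u.2 ≠ 0) :
    ∃ ψ : ℂ → ℂ, DifferentiableAt ℂ ψ u.1 ∧ Tendsto ψ (𝓝 u.1) (𝓝 u.2) ∧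
      ∀ᶠ x in 𝓝 u.1, m (x, ψ x) = 0 := by
  have hs : HasStrictFDerivAt m (fderiv ℂ m u) u := hm.hasStrictFDerivAt
  have h1 : HasDerivAt (fun κ => m (u.1, κ)) (fderiv ℂ m u (0, 1)) u.2 := by
    have h2 : HasDerivAt (fun κ : ℂ => ((u.1, κ) : ℂ × ℂ)) (0, 1) u.2 :=
      (hasDerivAt_const _ _).prodMk (hasDerivAt_id _)
    have h3 : HasFDerivAt m (fderiv ℂ m u) ((fun κ : ℂ => ((u.1, κ) : ℂ × ℂ)) u.2) := hs.hasFDerivAt
    exact h3.comp_hasDerivAt _ h2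
  rw [h1.deriv] at hd
  have hinv : ((fderiv ℂ m u) ∘L .inr ℂ ℂ ℂ).IsInvertible := by
    refine ⟨ContinuousLinearEquiv.unitsEquivAut ℂ (Units.mk0 _ hd), ?_⟩
    ext
    simp
  exact ⟨hs.implicitFunctionOfProdDomain hinv,
    (hs.hasStrictFDerivAt_implicitFunctionOfProdDomain hinv).hasFDerivAt.differentiableAt,
    hs.tendsto_implicitFunctionOfProdDomain hinv, by
      have := hs.eventually_apply_implicitFunctionOfProdDomain hinv
      rw [h0] at this; exact this⟩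

/-- the two comparison functions -/
lemma cmp {ρ ε k : ℝ} {κ : ℂ} (hε : 0 < ε) (him : -ε ≤ κ.im) :
    0 < ((-I * (κ - k) + 2 * ε) ^ (1 / 2 : ℂ)).re ∧
    ‖κ - k‖ - 2 * ε ≤ 2 * ((-I * (κ - k) + 2 * ε) ^ (1 / 2 : ℂ)).re ^ 2 ∧
    ((-I * (κ - k) + 2 * ε) ^ (1 / 2 : ℂ)).re ^ 2 ≤ ‖κ - k‖ + 2 * ε := by
  have hre : 0 < (-I * (κ - k) + 2 * ε : ℂ).re := by
    simp
    linarith
  have hn : ‖(-I * (κ - k) : ℂ)‖ = ‖κ - k‖ := by simp
  have h2 : ‖(2 * ε : ℂ)‖ = 2 * ε := by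
    simp [abs_of_pos hε]
  have hup : ‖(-I * (κ - k) + 2 * ε : ℂ)‖ ≤ ‖κ - k‖ + 2 * ε := by
    refine (norm_add_le _ _).trans ?_
    rw [hn, h2]
  have hlo : ‖κ - k‖ - 2 * ε ≤ ‖(-I * (κ - k) + 2 * ε : ℂ)‖ := by
    have := norm_sub_le_norm_add (-I * (κ - k) : ℂ) (2 * ε : ℂ)
    rw [hn, h2] at this
    exact this
  obtain ⟨a, b, c⟩ := sq_re hre
  exact ⟨a, hlo.trans b, c.trans hup⟩

/-- **LEAF LEMMA** (624 (9)), analytic form -/
theorem leaf_an {x₀ k₀ : ℂ} {R b : ℝ} (hR : 0 < R) (hb : 0 < b) {k₁ k₂ : ℝ} (h12 : k₁ ≠ k₂)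
    (hk1 : ‖(k₁ : ℂ) - k₀‖ < b) (hk2 : ‖(k₂ : ℂ) - k₀‖ < b) :
    ∃ ε > 0, ∀ m : ℂ × ℂ → ℂ, AnalyticOnNhd ℂ m (ball x₀ R ×ˢ ball k₀ b) →
      (∀ x ∈ ball x₀ R, InjOn (fun κ => m (x, κ)) (ball k₀ b)) →
      (∀ x ∈ ball x₀ R, ∀ κ ∈ ball k₀ b, κ.im < -ε → m (x, κ) ≠ 0) →
      (∃ x κ : ℂ, ‖x - x₀‖ < ε ∧ ‖κ - (k₁ : ℂ)‖ < ε ∧ m (x, κ) = 0) →
      ¬ ∃ x κ : ℂ, ‖x - x₀‖ < ε ∧ ‖κ - (k₂ : ℂ)‖ < ε ∧ m (x, κ) = 0 := by
  -- constants
  set d : ℝ := |k₁ - k₂| with hd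
  have hd0 : 0 < d := abs_pos.2 (sub_ne_zero.2 h12)
  obtain ⟨ρ, hρ, hρ1, hρ2⟩ : ∃ ρ > 0, ‖(k₁ : ℂ) - k₀‖ ≤ b - 2 * ρ ∧ ‖(k₂ : ℂ) - k₀‖ ≤ b - 2 * ρ := by
    refine ⟨min (b - ‖(k₁ : ℂ) - k₀‖) (b - ‖(k₂ : ℂ) - k₀‖) / 2, ?_, ?_, ?_⟩
    · have : 0 < min (b - ‖(k₁ : ℂ) - k₀‖) (b - ‖(k₂ : ℂ) - k₀‖) :=
        lt_min (by linarith) (by linarith)
      positivity
    · have := min_le_left (b - ‖(k₁ : ℂ) - k₀‖) (b - ‖(k₂ : ℂ) - k₀‖)
      linarith
    · have := min_le_right (b - ‖(k₁ : ℂ) - k₀‖) (b - ‖(k₂ : ℂ) - k₀‖)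
      linarith
  -- `L` = common size: all comparisons are with squares
  obtain ⟨L, hL, hLρ, hLd⟩ : ∃ L > 0, 64 * L ≤ ρ ∧ 64 * L ≤ d :=
    ⟨min ρ d / 64, by have := lt_min hρ hd0; positivity, by
      have := min_le_left ρ d; linarith, by have := min_le_right ρ d; linarith⟩
  set c : ℝ := Real.sqrt L with hc
  have hc0 : 0 < c := Real.sqrt_pos.2 hL
  have hc2 : c ^ 2 = L := Real.sq_sqrt hL.le
  obtain ⟨ε, hε, hεL, hεR⟩ : ∃ ε > 0, 400 * ε ≤ L ∧ 4 * ε ≤ R :=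
    ⟨min (L / 400) (R / 4), lt_min (by positivity) (by positivity), by
      have := min_le_left (L / 400) (R / 4); linarith, by
      have := min_le_right (L / 400) (R / 4); linarith⟩
  refine ⟨ε, hε, fun m hm hinj hnz hz1 hz2 => ?_⟩
  set r : ℝ := R / 2 with hr
  have hr0 : 0 < r := by positivity
  set V : Set ℂ := {x | x ∈ ball x₀ R ∧ ∃ κ ∈ ball k₀ b, m (x, κ) = 0} with hV
  have hex : ∀ x : ℂ, ∃ κ : ℂ, x ∈ V → κ ∈ ball k₀ b ∧ m (x, κ) = 0 := by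
    intro x
    by_cases hx : x ∈ V
    · obtain ⟨_, κ, h1, h2⟩ := hx
      exact ⟨κ, fun _ => ⟨h1, h2⟩⟩
    · exact ⟨0, fun h => absurd h hx⟩
  choose k hk using hex
  have huniq : ∀ x ∈ V, ∀ κ ∈ ball k₀ b, m (x, κ) = 0 → κ = k x := by
    intro x hx κ hκ h0
    exact hinj x hx.1 hκ (hk x hx).1 (by show m (x, κ) = m (x, k x); rw [h0, (hk x hx).2])
  have him : ∀ x ∈ V, -ε ≤ (k x).im := by
    intro x hx
    by_contra h
    exact hnz x hx.1 (k x) (hk x hx).1 (not_le.1 h) (hk x hx).2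
  -- local structure
  have hlocal : ∀ x ∈ V, V ∈ 𝓝 x ∧ DifferentiableAt ℂ k x := by
    intro x hx
    have hkx := hk x hx
    have hmem : ((x, k x) : ℂ × ℂ) ∈ ball x₀ R ×ˢ ball k₀ b := ⟨hx.1, hkx.1⟩
    have hslice : DifferentiableOn ℂ (fun κ => m (x, κ)) (ball k₀ b) := by
      intro κ hκ
      have h1 : DifferentiableAt ℂ m (x, κ) := (hm (x, κ) ⟨hx.1, hκ⟩).differentiableAt
      exact (DifferentiableAt.comp κ h1
        (by fun_prop : DifferentiableAt ℂ (fun κ : ℂ => ((x, κ) : ℂ × ℂ)) κ)).differentiableWithinAt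
    have hder := injOn_deriv_ne_zero isOpen_ball hslice (hinj x hx.1) hkx.1
    obtain ⟨ψ, hψd, hψt, hψ0⟩ := loc (hm _ hmem) hkx.2 hder
    have h1 : ∀ᶠ y in 𝓝 x, y ∈ ball x₀ R := isOpen_ball.mem_nhds hx.1
    have h2 : ∀ᶠ y in 𝓝 x, ψ y ∈ ball k₀ b := hψt (isOpen_ball.mem_nhds hkx.1)
    have h3 : ∀ᶠ y in 𝓝 x, y ∈ V ∧ k y = ψ y := by
      filter_upwards [h1, h2, hψ0] with y hy1 hy2 hy3
      have hyV : y ∈ V := ⟨hy1, ψ y, hy2, hy3⟩
      exact ⟨hyV, (huniq y hyV _ hy2 hy3).symm⟩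
    refine ⟨h3.mono fun y hy => hy.1, ?_⟩
    refine hψd.congr_of_eventuallyEq (h3.mono fun y hy => hy.2)
  have hVo : IsOpen V := isOpen_iff_mem_nhds.2 fun x hx => (hlocal x hx).1
  have hkd : DifferentiableOn ℂ k V := fun x hx => (hlocal x hx).2.differentiableWithinAt
  -- properness
  have hprop : ∀ y ∈ closedBall x₀ r, y ∉ V → ∀ᶠ x in 𝓝 y, x ∈ V → b - ρ < ‖k x - k₀‖ := by
    intro y hy hyV
    have hyR : y ∈ ball x₀ R := by
      rw [mem_closedBall] at hy; rw [mem_ball]; linarith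
    have hcomp : IsCompact (closedBall k₀ (b - ρ)) := isCompact_closedBall _ _
    have hsub : closedBall k₀ (b - ρ) ⊆ ball k₀ b := closedBall_subset_ball (by linarith)
    have h1 : ∀ᶠ x in 𝓝 y, ∀ κ ∈ closedBall k₀ (b - ρ), m (x, κ) ≠ 0 := by
      refine hcomp.eventually_forall_of_forall_eventually (fun κ hκ => ?_)
      have h2 : ContinuousAt m (y, κ) := (hm (y, κ) ⟨hyR, hsub hκ⟩).continuousAt
      have h3 : m (y, κ) ≠ 0 := fun h0 => hyV ⟨hyR, κ, hsub hκ, h0⟩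
      exact h2.eventually_ne h3
    filter_upwards [h1] with x hx hxV
    by_contra hle
    refine hx (k x) ?_ (hk x hxV).2
    rw [mem_closedBall, dist_eq_norm]
    exact not_lt.1 hle
  -- one potential
  have main : ∀ q : ℝ, ‖(q : ℂ) - k₀‖ ≤ b - 2 * ρ →
      (∃ x κ : ℂ, ‖x - x₀‖ < ε ∧ ‖κ - (q : ℂ)‖ < ε ∧ m (x, κ) = 0) →
      ∃ s : ℂ → ℝ, ContinuousOn s (closedBall x₀ r) ∧ Real.circleAverage s x₀ r ≤ 6 * Real.sqrt ε ∧
        (∀ x ∈ closedBall x₀ r, 0 ≤ s x) ∧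
        (∀ x ∈ closedBall x₀ r, x ∉ V → s x = c) ∧
        (∀ x ∈ closedBall x₀ r, x ∈ V → min ((‖k x - q‖ - 2 * ε) / 2) L ≤ s x ^ 2) := by
    intro q hq hz
    classical
    set F : ℂ → ℂ := fun x => (-I * (k x - q) + 2 * ε) ^ (1 / 2 : ℂ) with hF
    set s : ℂ → ℝ := fun x => if x ∈ V then min (F x).re c else c with hs
    have hs1 : ∀ x ∈ V, s x = min (F x).re c := fun x hx => by simp [hs, hx]
    have hs2 : ∀ x, x ∉ V → s x = c := fun x hx => by simp [hs, hx]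
    have hpos : ∀ x ∈ V, 0 < (F x).re := fun x hx => (cmp (ρ := 0) hε (him x hx)).1
    have hFd : DifferentiableOn ℂ F V := by
      refine DifferentiableOn.cpow ?_ (differentiableOn_const _) ?_
      · exact ((hkd.sub_const _).const_mul _).add_const _
      · intro x hx
        left
        have := him x hx
        simp
        linarith
    have hpr : ∀ y ∈ closedBall x₀ r, y ∉ V → ∀ᶠ x in 𝓝 y, x ∈ V → c < (F x).re := by
      intro y hy hyV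
      filter_upwards [hprop y hy hyV] with x hx hxV
      have h1 := hx hxV
      have h2 := (cmp (ρ := 0) (k := q) hε (him x hxV)).2.1
      have h3 := hpos x hxV
      have h4 : ρ ≤ ‖k x - q‖ := by
        have : ‖k x - k₀‖ ≤ ‖k x - q‖ + ‖(q : ℂ) - k₀‖ := norm_sub_le_norm_sub_add_norm_sub _ _ _
        linarith
      have h5 : L < (F x).re ^ 2 := by
        show L < ((-I * (k x - q) + 2 * ε) ^ (1 / 2 : ℂ)).re ^ 2
        linarith
      exact lt_of_pow_lt_pow_left₀ 2 h3.le (by rw [hc2]; exact h5)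
    obtain ⟨hsc, hsm⟩ := pot hr0 hVo hFd hc0 hs1 hs2 (fun x hx _ => hpos x hx) hpr
    refine ⟨s, hsc, ?_, ?_, fun x _ hx => hs2 x hx, ?_⟩
    · obtain ⟨x, κ, hx, hκ, h0⟩ := hz
      have hxb : ‖x - x₀‖ ≤ r / 2 := by rw [hr]; linarith
      have hxR : x ∈ ball x₀ R := by rw [mem_ball_iff_norm]; linarith
      have hκb : κ ∈ ball k₀ b := by
        rw [mem_ball_iff_norm]
        have : ‖κ - k₀‖ ≤ ‖κ - q‖ + ‖(q : ℂ) - k₀‖ := norm_sub_le_norm_sub_add_norm_sub _ _ _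
        linarith
      have hxV : x ∈ V := ⟨hxR, κ, hκb, h0⟩
      have hκx := huniq x hxV κ hκb h0
      have h1 := hsm x hxb
      have h2 := (cmp (ρ := 0) (k := q) hε (him x hxV)).2.2
      rw [← hκx] at h2
      have h3 : (F x).re ^ 2 ≤ 4 * ε := by
        show ((-I * (k x - q) + 2 * ε) ^ (1 / 2 : ℂ)).re ^ 2 ≤ 4 * ε
        rw [← hκx]
        linarith
      have h4 : (F x).re ≤ 2 * Real.sqrt ε := by
        refine (pow_le_pow_iff_left₀ (hpos x hxV).le (by positivity) two_ne_zero).1 ?_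
        rw [mul_pow, Real.sq_sqrt hε.le]; linarith
      have h5 : s x ≤ (F x).re := by rw [hs1 x hxV]; exact min_le_left _ _
      linarith
    · intro x hx
      by_cases hxV : x ∈ V
      · rw [hs1 x hxV]; exact le_min (hpos x hxV).le hc0.le
      · rw [hs2 x hxV]; exact hc0.le
    · intro x _ hxV
      rw [hs1 x hxV]
      have h2 := (cmp (ρ := 0) (k := q) hε (him x hxV)).2.1
      have h3 : (‖k x - q‖ - 2 * ε) / 2 ≤ (F x).re ^ 2 := by
        show (‖k x - q‖ - 2 * ε) / 2 ≤ ((-I * (k x - q) + 2 * ε) ^ (1 / 2 : ℂ)).re ^ 2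
        linarith
      rcases le_total (F x).re c with h | h
      · rw [min_eq_left h]; exact (min_le_left _ _).trans h3
      · rw [min_eq_right h, hc2]; exact min_le_right _ _
  obtain ⟨s₁, hc1, ha1, hp1, hv1, hw1⟩ := main k₁ hρ1 hz1
  obtain ⟨s₂, hc2', ha2, hp2, hv2, hw2⟩ := main k₂ hρ2 hz2
  have hsum : ∀ x ∈ closedBall x₀ r, c ≤ s₁ x + s₂ x := by
    intro x hx
    by_cases hxV : x ∈ V
    · have h1 := hw1 x hx hxV
      have h2 := hw2 x hx hxV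
      have h3 : d ≤ ‖k x - k₁‖ + ‖k x - k₂‖ := by
        have h4 : ‖((k₁ : ℂ) - k₂)‖ = d := by
          rw [hd, ← Complex.ofReal_sub, Complex.norm_real, Real.norm_eq_abs]
        have h5 : ‖((k₁ : ℂ) - k₂)‖ ≤ ‖(k₁ : ℂ) - k x‖ + ‖k x - k₂‖ :=
          norm_sub_le_norm_sub_add_norm_sub _ _ _
        rw [norm_sub_rev (k₁ : ℂ) (k x)] at h5
        linarith
      rcases le_total (d / 2) ‖k x - k₁‖ with h | h
      · have h4 : L ≤ s₁ x ^ 2 := le_trans (le_min (by linarith) le_rfl) h1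
        have h5 : c ≤ s₁ x := by
          refine (pow_le_pow_iff_left₀ hc0.le (hp1 x hx) two_ne_zero).1 ?_
          rw [hc2]; exact h4
        linarith [hp2 x hx]
      · have h4 : L ≤ s₂ x ^ 2 := le_trans (le_min (by linarith) le_rfl) h2
        have h5 : c ≤ s₂ x := by
          refine (pow_le_pow_iff_left₀ hc0.le (hp2 x hx) two_ne_zero).1 ?_
          rw [hc2]; exact h4
        linarith [hp1 x hx]
    · rw [hv1 x hx hxV]; linarith [hp2 x hx]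
  have hi1 : CircleIntegrable s₁ x₀ r :=
    ContinuousOn.circleIntegrable hr0.le (hc1.mono sphere_subset_closedBall)
  have hi2 : CircleIntegrable s₂ x₀ r :=
    ContinuousOn.circleIntegrable hr0.le (hc2'.mono sphere_subset_closedBall)
  have h1 : c ≤ Real.circleAverage (fun x => s₁ x + s₂ x) x₀ r := by
    have h2 : Real.circleAverage (fun _ => c) x₀ r ≤ Real.circleAverage (fun x => s₁ x + s₂ x) x₀ r := by
      refine Real.circleAverage_mono (by simp) (hi1.add hi2) ?_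
      intro x hx
      rw [abs_of_pos hr0] at hx
      exact hsum x (sphere_subset_closedBall hx)
    rwa [Real.circleAverage_const] at h2
  rw [Real.circleAverage_fun_add hi1 hi2] at h1
  have h2 : c ≤ 12 * Real.sqrt ε := by linarith
  have h3 : c ^ 2 ≤ (12 * Real.sqrt ε) ^ 2 := by
    exact pow_le_pow_left₀ hc0.le h2 2
  rw [hc2, mul_pow, Real.sq_sqrt hε.le] at h3
  linarith

/-- **LEAF LEMMA** (624 (9)): `m` holomorphic on a bidisc, injective in the leaf variable `κ`, free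
of zeros for `Im κ < -ε`: its zeros cannot come `ε`-close both to `(x₀, k₁)` and to `(x₀, k₂)`. -/
theorem leaf {x₀ k₀ : ℂ} {R b : ℝ} (hR : 0 < R) (hb : 0 < b) {k₁ k₂ : ℝ} (h12 : k₁ ≠ k₂)
    (hk1 : ‖(k₁ : ℂ) - k₀‖ < b) (hk2 : ‖(k₂ : ℂ) - k₀‖ < b) :
    ∃ ε > 0, ∀ m : ℂ × ℂ → ℂ, DifferentiableOn ℂ m (ball x₀ R ×ˢ ball k₀ b) →
      (∀ x ∈ ball x₀ R, InjOn (fun κ => m (x, κ)) (ball k₀ b)) →
      (∀ x ∈ ball x₀ R, ∀ κ ∈ ball k₀ b, κ.im < -ε → m (x, κ) ≠ 0) →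
      (∃ x κ : ℂ, ‖x - x₀‖ < ε ∧ ‖κ - (k₁ : ℂ)‖ < ε ∧ m (x, κ) = 0) →
      ¬ ∃ x κ : ℂ, ‖x - x₀‖ < ε ∧ ‖κ - (k₂ : ℂ)‖ < ε ∧ m (x, κ) = 0 := by
  obtain ⟨ε, hε, h⟩ := leaf_an (x₀ := x₀) hR hb h12 hk1 hk2
  exact ⟨ε, hε, fun m hm => h m
    (P281.MF.analyticOnNhd_of_differentiableOn (isOpen_ball.prod isOpen_ball) hm)⟩

end Vale.Agent.P097.H350
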